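import Crest.Agent.R241.Geo.Defs
import Crest.Agent.R203.AFlow
import Crest.Agent.R203.ACut

/-! # Row 241, block I: global flows of complete smooth fields -/

open Set Filter Topology
open Crest.GeometryTopology.Submanifold
open scoped ContDiff InnerProductSpace

noncomputable section

namespace Crest.Agent.R241.RG

variable {d N : ℕ} {σ : ℝ} {S : Set (Euc N)} {P : Euc N → Euc N →L[ℝ] Euc N} {p : Euc N}

variable {B : Type} [NormedAddCommGroup B] [NormedSpace ℝ B] [FiniteDimensional ℝ B]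

theorem flow_fst {E F : Type*} [NormedAddCommGroup E] [NormedSpace ℝ E] [NormedAddCommGroup F]
    [NormedSpace ℝ F] {α : ℝ → E × F} {a : E × F} {t : ℝ} (h : HasDerivAt α a t) :
    HasDerivAt (fun t => (α t).1) a.1 t :=
  (ContinuousLinearMap.fst ℝ E F).hasFDerivAt.comp_hasDerivAt t h

theorem flow_snd {E F : Type*} [NormedAddCommGroup E] [NormedSpace ℝ E] [NormedAddCommGroup F]
    [NormedSpace ℝ F] {α : ℝ → E × F} {a : E × F} {t : ℝ} (h : HasDerivAt α a t) :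
    HasDerivAt (fun t => (α t).2) a.2 t :=
  (ContinuousLinearMap.snd ℝ E F).hasFDerivAt.comp_hasDerivAt t h

omit [FiniteDimensional ℝ B] in
/-- Uniqueness on an interval.  Recipe: for `t ∈ Ioo a b` pick `[a', b'] ⊆ Ioo a b` around `t, t₀`;
both curves stay in a closed ball on which `W` is Lipschitz (`ContDiff` ⇒ bounded derivative on
the compact convex ball, `Convex.lipschitzOnWith_of_nnnorm_fderiv_le`);
`ODE_solution_unique_of_mem_Ioo`. -/
theorem ode_unique {W : B → B} (hW : ContDiff ℝ ∞ W) {α β : ℝ → B} {a b t₀ : ℝ}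
    (ht₀ : t₀ ∈ Ioo a b) (hα : ∀ t ∈ Ioo a b, HasDerivAt α (W (α t)) t)
    (hβ : ∀ t ∈ Ioo a b, HasDerivAt β (W (β t)) t) (h0 : α t₀ = β t₀) : EqOn α β (Ioo a b) := by
  intro t ht
  obtain ⟨a', ha1, ha2⟩ := exists_between (lt_min ht.1 ht₀.1)
  obtain ⟨b', hb1, hb2⟩ := exists_between (max_lt ht.2 ht₀.2)
  rw [lt_min_iff] at ha2
  rw [max_lt_iff] at hb1
  have hsub : Icc a' b' ⊆ Ioo a b := Icc_subset_Ioo ha1 hb2
  have hK : IsCompact (α '' Icc a' b' ∪ β '' Icc a' b') :=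
    (isCompact_Icc.image_of_continuousOn fun s hs =>
      (hα s (hsub hs)).continuousAt.continuousWithinAt).union
    (isCompact_Icc.image_of_continuousOn fun s hs =>
      (hβ s (hsub hs)).continuousAt.continuousWithinAt)
  obtain ⟨K, hK'⟩ := LocallyLipschitzOn.exists_lipschitzOnWith_of_compact hK
    (ContDiff.locallyLipschitz (hW.of_le (by simp))).locallyLipschitzOn
  exact ODE_solution_unique_of_mem_Ioo (v := fun _ => W) (fun _ _ => hK') ⟨ha2.2, hb1.2⟩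
    (fun s hs => ⟨hα s (hsub (Ioo_subset_Icc_self hs)), Or.inl ⟨s, Ioo_subset_Icc_self hs, rfl⟩⟩)
    (fun s hs => ⟨hβ s (hsub (Ioo_subset_Icc_self hs)), Or.inr ⟨s, Ioo_subset_Icc_self hs, rfl⟩⟩)
    h0 ⟨ha2.1, hb1.1⟩

omit [FiniteDimensional ℝ B] in
theorem ode_unique_univ {W : B → B} (hW : ContDiff ℝ ∞ W) {α β : ℝ → B}
    (hα : ∀ t, HasDerivAt α (W (α t)) t) (hβ : ∀ t, HasDerivAt β (W (β t)) t) (h0 : α 0 = β 0) :
    α = β := funext fun t =>
  ode_unique hW (a := -(|t| + 1)) (b := |t| + 1) (t₀ := 0)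
    ⟨by linarith [abs_nonneg t], by linarith [abs_nonneg t]⟩ (fun t _ => hα t) (fun t _ => hβ t) h0
    ⟨by linarith [neg_abs_le t], by linarith [le_abs_self t]⟩

/-- A smooth field with a-priori bounds has a global smooth flow.  Recipe: `χₙ` from
`R203.exists_cutoff` (`= 1` on `closedBall 0 n`), `Φₙ` = `R203.exists_smooth_flow` of `χₙ • W`
(compact support ⇒ bounded derivative).  If `(1 + |t|) ‖x‖ < n` the curve `Φₙ (·, x)` solves the ODE
of `W` on `Ioo (-T) T` for some `T > |t|`, so `Φₙ = Φₘ` on the open set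
`{(t, x) | (1 + |t|) ‖x‖ < n}` for `n ≤ m` (`ode_unique`).  Put `Φ q = Φ_{⌈(1+|t|)‖x‖⌉₊+1} q`; near any
point it is equal to one `Φₙ`. -/
theorem exists_flow_of_bound {W : B → B} (hW : ContDiff ℝ ∞ W)
    (hb : ∀ (α : ℝ → B) (l : ℝ → ℝ), (∀ t, 0 ≤ l t ∧ l t ≤ 1) →
      (∀ t, HasDerivAt α (l t • W (α t)) t) → ∀ t, ‖α t‖ ≤ (1 + |t|) * ‖α 0‖) :
    ∃ Φ : ℝ × B → B, ContDiff ℝ ∞ Φ ∧ (∀ x, Φ (0, x) = x) ∧
      ∀ t x, HasDerivAt (fun s => Φ (s, x)) (W (Φ (t, x))) t := by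
  have key : ∀ n : ℕ, ∃ Φ : ℝ × B → B, ContDiff ℝ ∞ Φ ∧ (∀ x, Φ (0, x) = x) ∧
      ∀ t x, (1 + |t|) * ‖x‖ < n → HasDerivAt (fun s => Φ (s, x)) (W (Φ (t, x))) t := by
    intro n
    obtain ⟨χ, h1, h2, -, h3, O, -, h4, -, h5⟩ := R203.exists_cutoff isOpen_univ
      (isCompact_closedBall (0 : B) n) (subset_univ _)
    have h6 : ContDiff ℝ ∞ fun x => χ x • W x := h1.smul hW
    obtain ⟨K, hK⟩ := (h6.continuous_fderiv (by simp)).bounded_above_of_compact_support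
      ((h2.smul_right (f' := W)).fderiv ℝ)
    obtain ⟨Φ, h7, h8, h9, -⟩ := R203.exists_smooth_flow h6 hK
    refine ⟨Φ, h7, h8, fun t x h => ?_⟩
    have h10 := hb (fun s => Φ (s, x)) (fun s => χ (Φ (s, x))) (fun s => h3 _) (fun s => h9 s x) t
    rw [h8] at h10
    have := h9 t x
    rwa [h5 _ (h4 (mem_closedBall_zero_iff.2 (h10.trans h.le))), one_smul] at this
  choose Φ h1 h2 h3 using key
  have hc : Continuous fun q : ℝ × B => (1 + |q.1|) * ‖q.2‖ := by fun_prop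
  have heq : ∀ (n m : ℕ) (q : ℝ × B), (1 + |q.1|) * ‖q.2‖ < n → (1 + |q.1|) * ‖q.2‖ < m →
      Φ n q = Φ m q := by
    rintro n m ⟨t, x⟩ hn hm
    have hc' : Continuous fun T : ℝ => (1 + T) * ‖x‖ := by fun_prop
    obtain ⟨T, ⟨hT1, hT2⟩, hT⟩ := ((((hc'.continuousAt (x := |t|)).eventually_lt continuousAt_const
      hn).and ((hc'.continuousAt (x := |t|)).eventually_lt continuousAt_const hm)).filter_mono
        (nhdsWithin_le_nhds (s := Ioi |t|))).and self_mem_nhdsWithin |>.exists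
    have hT0 : 0 < T := (abs_nonneg t).trans_lt hT
    have hle : ∀ s ∈ Ioo (-T) T, (1 + |s|) * ‖x‖ ≤ (1 + T) * ‖x‖ := fun s hs => by
      gcongr
      exact (abs_lt.2 hs).le
    exact ode_unique hW (t₀ := 0) ⟨neg_lt_zero.2 hT0, hT0⟩
      (fun s hs => h3 n s x ((hle s hs).trans_lt hT1))
      (fun s hs => h3 m s x ((hle s hs).trans_lt hT2)) (by simp only [h2]) (abs_lt.1 hT)
  have hlt : ∀ q : ℝ × B, (1 + |q.1|) * ‖q.2‖ < (⌊(1 + |q.1|) * ‖q.2‖⌋₊ + 1 : ℕ) := fun q => by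
    exact_mod_cast Nat.lt_floor_add_one _
  have hev : ∀ q : ℝ × B, (fun q : ℝ × B => Φ (⌊(1 + |q.1|) * ‖q.2‖⌋₊ + 1) q) =ᶠ[𝓝 q]
      Φ (⌊(1 + |q.1|) * ‖q.2‖⌋₊ + 1) := fun q =>
    (hc.continuousAt.eventually_lt continuousAt_const (hlt q)).mono fun q' hq' =>
      heq _ _ q' (hlt q') hq'
  refine ⟨fun q => Φ (⌊(1 + |q.1|) * ‖q.2‖⌋₊ + 1) q, contDiff_iff_contDiffAt.2 fun q =>
    (h1 _).contDiffAt.congr_of_eventuallyEq (hev q), fun x => h2 _ x, fun t x => ?_⟩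
  exact (h3 _ t x (hlt (t, x))).congr_of_eventuallyEq
    ((Continuous.prodMk_left x).continuousAt.eventually (hev (t, x)))

/-- The exponential map of a norm-preserving spray `x'' = Om x x' x'`.  Recipe:
`exists_flow_of_bound` for `W (x, v) = (v, Om x v v)` on `Euc N × Euc N` (`‖v‖²` has derivative `0`,
`‖x'‖ ≤ ‖v‖`, sup norm on the product); `ex q = (Φ (1, q)).1`; scaling
`Φ (t, (p, s • v)) = ((Φ (s t, (p, v))).1, s • (Φ (s t, (p, v))).2)` by `ode_unique_univ`;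
`c₁ t = (Φ (t, (p, v))).2`. -/
theorem exists_spray_exp {Om : Euc N → Euc N →L[ℝ] Euc N →L[ℝ] Euc N} (hOm : ContDiff ℝ ∞ Om)
    (hskew : ∀ x v z, ⟪Om x v z, z⟫_ℝ = 0) :
    ∃ ex : Euc N × Euc N → Euc N, ContDiff ℝ ∞ ex ∧ ∀ p v, ex (p, 0) = p ∧
      ∃ c₁ : ℝ → Euc N, c₁ 0 = v ∧ ∀ t : ℝ, HasDerivAt (fun s : ℝ => ex (p, s • v)) (c₁ t) t ∧
        HasDerivAt c₁ (Om (ex (p, t • v)) (c₁ t) (c₁ t)) t := by
  have hW : ContDiff ℝ ∞ fun q : Euc N × Euc N => (q.2, Om q.1 q.2 q.2) :=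
    contDiff_snd.prodMk (((hOm.comp contDiff_fst).clm_apply contDiff_snd).clm_apply contDiff_snd)
  obtain ⟨Φ, h1, h2, h3⟩ := exists_flow_of_bound hW fun α l hl hα t => by
    have a1 : ∀ t, HasDerivAt (fun t => (α t).1) (l t • (α t).2) t := fun t => flow_fst (hα t)
    have a2 : ∀ t, HasDerivAt (fun t => ‖(α t).2‖ ^ 2) 0 t := fun t => by
      have := (flow_snd (hα t)).norm_sq
      rwa [Prod.smul_snd, inner_smul_right, real_inner_comm, hskew, mul_zero, mul_zero] at this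
    have a3 : ∀ t, ‖(α t).2‖ = ‖(α 0).2‖ := fun t =>
      (pow_left_inj₀ (norm_nonneg _) (norm_nonneg _) two_ne_zero).1
        (is_const_of_deriv_eq_zero (fun t => (a2 t).differentiableAt) (fun t => (a2 t).deriv) t 0)
    have a4 := convex_univ.norm_image_sub_le_of_norm_hasDerivWithin_le (C := ‖α 0‖)
      (fun s _ => (a1 s).hasDerivWithinAt) (fun s _ => by
        rw [norm_smul, a3, Real.norm_of_nonneg (hl s).1]
        exact (mul_le_of_le_one_left (norm_nonneg _) (hl s).2).trans (norm_snd_le _))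
      (mem_univ 0) (mem_univ t)
    rw [sub_zero, Real.norm_eq_abs] at a4
    have a5 := norm_sub_norm_le (α t).1 (α 0).1
    refine norm_prod_le_iff.2 ⟨by nlinarith [norm_fst_le (α 0)], ?_⟩
    rw [a3]
    nlinarith [norm_snd_le (α 0), mul_nonneg (abs_nonneg t) (norm_nonneg (α 0))]
  have hs : ∀ (p v : Euc N) (s : ℝ), (Φ (1, (p, s • v))).1 = (Φ (s, (p, v))).1 := by
    intro p v s
    have := ode_unique_univ hW (α := fun t => Φ (t, (p, s • v)))
      (β := fun t => ((Φ (t * s, (p, v))).1, s • (Φ (t * s, (p, v))).2)) (fun t => h3 t _)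
      (fun t => by
        have b1 := (h3 (t * s) (p, v)).scomp t (hasDerivAt_mul_const s)
        refine ((flow_fst b1).prodMk ((flow_snd b1).const_smul s)).congr_deriv ?_
        simp) (by simp [h2])
    simpa using congrArg Prod.fst (congrFun this 1)
  refine ⟨fun q => (Φ (1, q)).1, (h1.comp (contDiff_prodMk_right 1)).fst, fun p v => ⟨?_,
    fun t => (Φ (t, (p, v))).2, by simp [h2], fun t => ?_⟩⟩
  · simpa [h2] using hs p v 0
  · simp only [hs]
    exact ⟨flow_fst (h3 t _), flow_snd (h3 t _)⟩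

end Crest.Agent.R241.RG
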