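import Crest.Agent.R241.Geo.Cover
import Crest.Agent.R241.Geo.Model

/-! # Row 241, block I: lengths, hinges and the distance ‖G x y‖ -/

open Set Filter Topology
open Crest.GeometryTopology.Submanifold
open scoped ContDiff InnerProductSpace

noncomputable section

namespace Crest.Agent.R241.RG

variable {d N : ℕ} {σ : ℝ} {S : Set (Euc N)} {P : Euc N → Euc N →L[ℝ] Euc N} {p : Euc N}

section one

variable {F : Euc d → Euc N} {G : Euc N → Euc d}

theorem GC.lift (h : GC σ S P p F G) {c : ℝ → Euc N} {c' : Euc N} {t : ℝ}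
    (hc : HasDerivAt c c' t) (hS : ∀ s, c s ∈ S) :
    ∃ u, HasDerivAt (fun s => G (c s)) u t ∧ fderiv ℝ F (G (c t)) u = c' := by
  obtain ⟨u, h1, h2⟩ := lift_deriv h.nc.smooth h.expand (γ := fun s => G (c s)) (c := c) (c' := c')
    (mem_univ t) uniqueDiffWithinAt_univ
    ((h.cont _ (hS t)).comp hc.continuousAt.continuousWithinAt fun s _ => hS s)
    hc.hasDerivWithinAt (Eventually.of_forall fun s => h.right _ (hS s))
  exact ⟨u, hasDerivWithinAt_univ.1 h1, h2⟩

/-- `lift`, `expand`, mean value inequality (`norm_image_sub_le_of_norm_deriv_le_segment_01'`) -/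
theorem GC.len (h : GC σ S P p F G) {c c' : ℝ → Euc N} {l : ℝ} (hc : ∀ t, HasDerivAt c (c' t) t)
    (hS : ∀ t, c t ∈ S) (hl : ∀ t ∈ Icc (0 : ℝ) 1, ‖c' t‖ ≤ l) : ‖G (c 1) - G (c 0)‖ ≤ l := by
  choose u hu hu' using fun t => h.lift (hc t) hS
  exact norm_image_sub_le_of_norm_deriv_le_segment_01' (fun t _ => (hu t).hasDerivWithinAt)
    fun t ht => (h.expand _ _).trans (hu' t ▸ hl t (Ico_subset_Icc_self ht))

/-- `md_ode` for `ψ t = Phi σ (G (c t)) (G (c 0))` (`lift`, `exists_fderiv_Phi`, `rauch`,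
`Phi_self`) -/
theorem GC.hinge (hσ : 0 ≤ σ) (h : GC σ S P p F G) {c c' : ℝ → Euc N} {l : ℝ}
    (hc : ∀ t, HasDerivAt c (c' t) t) (hS : ∀ t, c t ∈ S)
    (hl : ∀ t ∈ Icc (0 : ℝ) 1, ‖c' t‖ ≤ l) : Phi σ (G (c 1)) (G (c 0)) ≤ md σ l := by
  choose u hu hu' using fun t => h.lift (hc t) hS
  choose L hL h0 hL' using fun v => exists_fderiv_Phi hσ v (G (c 0))
  refine md_ode hσ ((norm_nonneg _).trans (hl 0 ⟨le_rfl, zero_le_one⟩))
    (ψ := fun t => Phi σ (G (c t)) (G (c 0))) (fun t => (hL _).comp_hasDerivAt t (hu t))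
    (Phi_self hσ _) fun t ht => (hL' _ _).trans (mul_le_mul_of_nonneg_left ?_ (h0 _))
  refine (h.rauch _ _).trans ?_
  rw [hu']
  exact pow_le_pow_left₀ (norm_nonneg _) (hl t ht) 2

theorem GC.self (h : GC σ S P p F G) : G p = 0 := by
  rw [← h.nc.zero, h.left]

/-- radial curves `t ↦ F ((a + t b) • v)` have speed `|b| ‖v‖` (chain rule, `speed`) -/
theorem GC.radial (h : GC σ S P p F G) (v : Euc d) (a b t : ℝ) :
    ∃ c', HasDerivAt (fun s : ℝ => F ((a + s * b) • v)) c' t ∧ ‖c'‖ = |b| * ‖v‖ := by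
  have h0 : HasDerivAt (fun s : ℝ => (a + s * b) • v) (b • v) t :=
    ((hasDerivAt_mul_const b).const_add a).smul_const v
  refine ⟨_, (h.nc.smooth.differentiable (by simp) _).hasFDerivAt.comp_hasDerivAt t h0, ?_⟩
  rw [map_smul, norm_smul, h.speed, Real.norm_eq_abs]

/-- chord ≤ arc (`radial` with `a = 0`, `b = 1`, mean value inequality) -/
theorem GC.chord (h : GC σ S P p F G) {y : Euc N} (hy : y ∈ S) : ‖y - p‖ ≤ ‖G y‖ := by
  choose c' h1 h2 using h.radial (G y) 0 1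
  have := norm_image_sub_le_of_norm_deriv_le_segment_01' (fun t _ => (h1 t).hasDerivWithinAt)
    fun t _ => (h2 t).le
  simpa [h.right y hy, h.nc.zero] using this

end one

variable {F : Euc N → Euc d → Euc N} {G : Euc N → Euc N → Euc d} {x y z : Euc N}

/-- `len` in the chart at `x` along `t ↦ F y (t • G y z)` (`radial`) -/
theorem Atl.sub_le (h : Atl σ S P F G) (hx : x ∈ S) (hy : y ∈ S) (hz : z ∈ S) :
    ‖G x z - G x y‖ ≤ ‖G y z‖ := by
  choose c' h1 h2 using (h y hy).radial (G y z) 0 1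
  have := (h x hx).len h1 (fun t => (h y hy).nc.mem _) fun t _ => (h2 t).le
  simpa [(h y hy).right z hz, (h y hy).nc.zero] using this

theorem Atl.comm (h : Atl σ S P F G) (hx : x ∈ S) (hy : y ∈ S) : ‖G x y‖ = ‖G y x‖ := by
  have h1 := h.sub_le hx hy hx
  have h2 := h.sub_le hy hx hy
  rw [(h x hx).self, zero_sub, norm_neg] at h1
  rw [(h y hy).self, zero_sub, norm_neg] at h2
  exact le_antisymm h1 h2

theorem Atl.tri (h : Atl σ S P F G) (hx : x ∈ S) (hy : y ∈ S) (hz : z ∈ S) :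
    ‖G x z‖ ≤ ‖G x y‖ + ‖G y z‖ := by
  linarith [h.sub_le hx hy hz, norm_sub_norm_le (G x z) (G x y)]

/-- `hinge` in the chart at `x` along `t ↦ F y (t • G y z)` -/
theorem Atl.hinge (hσ : 0 ≤ σ) (h : Atl σ S P F G) (hx : x ∈ S) (hy : y ∈ S) (hz : z ∈ S) :
    Phi σ (G x z) (G x y) ≤ md σ ‖G y z‖ := by
  choose c' h1 h2 using (h y hy).radial (G y z) 0 1
  have := (h x hx).hinge hσ h1 (fun t => (h y hy).nc.mem _) fun t _ => (h2 t).le
  simpa [(h y hy).right z hz, (h y hy).nc.zero] using this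

/-- radial lines are isometric: `≤` by `len` in the chart at `F x (s • v)` along
`r ↦ F x ((s + r (t - s)) • v)`; `≥` by `sub_le` and `left` -/
theorem Atl.radial_iso (h : Atl σ S P F G) (hx : x ∈ S) (v : Euc d) (s t : ℝ) :
    ‖G (F x (s • v)) (F x (t • v))‖ = |s - t| * ‖v‖ := by
  have g := h x hx
  refine le_antisymm ?_ ?_
  · choose c' h1 h2 using g.radial v s (t - s)
    have := (h _ (g.nc.mem (s • v))).len h1 (fun t => g.nc.mem _) fun t _ => (h2 t).le
    simpa [(h _ (g.nc.mem (s • v))).self, abs_sub_comm] using this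
  · have := h.sub_le hx (g.nc.mem (s • v)) (g.nc.mem (t • v))
    rwa [g.left, g.left, ← sub_smul, norm_smul, Real.norm_eq_abs, abs_sub_comm] at this

/-- Point-side comparison.  Recipe: `m = F x (a • v)`; `c t = F x ((a + t) • v)` is a geodesic (shift
of `geod v`: `deriv_comp_const_add`), so `c t = F m (t • τ)` (`uniq`), `‖τ‖ = 1` (`radial_iso`, `left`),
`G m x = (-a) • τ`, `G m y = (r - a) • τ` for `y = F x (r • v)`.  With `w = G m z`, `hinge` gives
`Phi σ (G m x) w ≤ md ‖G z x‖` and `Phi σ (G m y) w ≤ md ‖G z y‖`; unfold `Phi`, `sr_mul`; add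
`sn (r - a)` times the first and `sn a` times the second; `sn_add`, and
`sn (r-a) md a + sn a md (r-a) = sn a md r - sn r md a` (write `r = (r-a) + a`, `sn_add`, `md_add`,
`sn_sq`). -/
theorem Atl.cmp (hσ : 0 ≤ σ) (h : Atl σ S P F G) (hx : x ∈ S) (hz : z ∈ S) {v : Euc d}
    (hv : ‖v‖ = 1) {a r : ℝ} (ha : a ∈ Icc 0 r) :
    sn σ r * md σ ‖G z (F x (a • v))‖ ≤ sn σ (r - a) * md σ ‖G z x‖
      + sn σ a * md σ ‖G z (F x (r • v))‖ - sn σ a * md σ r + sn σ r * md σ a := by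
  have g := h x hx
  have hm := g.nc.mem (a • v)
  have gm := h _ hm
  have hgeo : IsGeod S P fun t => F x ((a + t) • v) :=
    ⟨(g.nc.geod v).smooth.comp (contDiff_const.add contDiff_id), fun t => g.nc.mem _, fun t => by
      have h1 : deriv (fun t => F x ((a + t) • v)) = fun t => deriv (fun t : ℝ => F x (t • v)) (a + t) :=
        funext fun t => deriv_comp_const_add (fun t : ℝ => F x (t • v)) a t
      rw [h1, deriv_comp_const_add]
      exact (g.nc.geod v).eq (a + t)⟩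
  obtain ⟨τ, hτ⟩ := gm.nc.uniq _ hgeo (by simp)
  have hτ1 : ‖τ‖ = 1 := by
    have := h.radial_iso hx v a (a + 1)
    rw [hτ 1, gm.left] at this
    simpa [hv] using this
  have h1 : G (F x (a • v)) x = (-a) • τ := by
    rw [← gm.left ((-a) • τ), ← hτ]
    simp [g.nc.zero]
  have h2 : G (F x (a • v)) (F x (r • v)) = (r - a) • τ := by
    rw [← gm.left ((r - a) • τ), ← hτ]
    simp
  have h3 := h.hinge hσ hm hz hx
  have h4 := h.hinge hσ hm hz (g.nc.mem (r • v))
  have hb : 0 ≤ r - a := sub_nonneg.2 ha.2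
  rw [h1, Phi, norm_smul, hτ1, mul_one, Real.norm_eq_abs, abs_neg, abs_of_nonneg ha.1,
    inner_smul_left] at h3
  rw [h2, Phi, norm_smul, hτ1, mul_one, Real.norm_eq_abs, abs_of_nonneg hb, inner_smul_left] at h4
  rw [h.comm hz hm]
  simp only [conj_trivial] at h3 h4
  have h5 := mul_le_mul_of_nonneg_left h3 (sn_nonneg hσ hb)
  have h6 := mul_le_mul_of_nonneg_left h4 (sn_nonneg hσ ha.1)
  have e1 := sn_add hσ (r - a) a
  have e2 := md_add hσ (r - a) a
  have e3 := sn_sq hσ a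
  rw [sub_add_cancel] at e1 e2
  have e4 := sr_mul σ a
  have e5 := sr_mul σ (r - a)
  generalize sr σ ‖G (F x (a • v)) z‖ = A at *
  generalize md σ ‖G (F x (a • v)) z‖ = M at *
  generalize ⟪τ, G (F x (a • v)) z⟫_ℝ = I at *
  rw [e1, e2]
  have e6 : sn σ (r - a) * (sr σ a * A * (-a * I)) + sn σ a * (sr σ (r - a) * A * ((r - a) * I)) = 0 := by
    linear_combination (-(sn σ (r - a) * A * I)) * e4 + (sn σ a * A * I) * e5
  have e7 := congrArg (· * sn σ (r - a)) e3
  linarith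

/-- Recipe: lower bound: `chord` and strict differentiability of `F x` at `v`
(`ContDiffAt.hasStrictFDerivAt`, `.isLittleO`); upper bound: `len` in the chart at `F x q.1` along
`t ↦ F x (q.1 + t • (q.2 - q.1))`, continuity of `fderiv (F x)` at `v` on a ball. -/
theorem Atl.loc (h : Atl σ S P F G) (hx : x ∈ S) (v : Euc d) {ε : ℝ} (hε : 0 < ε) :
    ∀ᶠ q : Euc d × Euc d in 𝓝 (v, v),
      |‖G (F x q.1) (F x q.2)‖ - ‖fderiv ℝ (F x) v (q.1 - q.2)‖| ≤ ε * ‖q.1 - q.2‖ := by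
  have g := h x hx
  have h1 := (g.nc.smooth.contDiffAt.hasStrictFDerivAt (x := v) (by simp)).isLittleO.bound hε
  obtain ⟨δ, hδ, h2⟩ := Metric.continuousAt_iff.1
    (g.nc.smooth.continuous_fderiv (by simp)).continuousAt ε hε
  filter_upwards [h1, prod_mem_nhds (Metric.ball_mem_nhds v hδ) (Metric.ball_mem_nhds v hδ)]
    with q h3 h4
  refine abs_sub_le_iff.2 ⟨?_, ?_⟩
  · have h5 : ∀ t : ℝ, HasDerivAt (fun t : ℝ => q.1 + t • (q.2 - q.1)) (q.2 - q.1) t := fun t => by
      simpa using ((hasDerivAt_id t).smul_const (q.2 - q.1)).const_add q.1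
    have h6 := (h _ (g.nc.mem q.1)).len (l := ‖fderiv ℝ (F x) v (q.1 - q.2)‖ + ε * ‖q.1 - q.2‖)
      (fun t => (g.nc.smooth.differentiable (by simp) _).hasFDerivAt.comp_hasDerivAt t (h5 t))
      (fun t => g.nc.mem _) fun t ht => by
        have h7 := h2 ((convex_ball v δ).add_smul_sub_mem h4.1 h4.2 ht)
        rw [dist_eq_norm] at h7
        have h8 := (fderiv ℝ (F x) (q.1 + t • (q.2 - q.1)) - fderiv ℝ (F x) v).le_of_opNorm_le h7.le
          (q.1 - q.2)
        rw [← neg_sub q.1 q.2, map_neg, norm_neg, neg_sub]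
        rw [sub_apply] at h8
        linarith [norm_sub_norm_le (fderiv ℝ (F x) (q.1 + t • (q.2 - q.1)) (q.1 - q.2))
          (fderiv ℝ (F x) v (q.1 - q.2))]
    simp only [Function.comp_apply, one_smul, add_sub_cancel, zero_smul, add_zero,
      (h _ (g.nc.mem q.1)).self, sub_zero] at h6
    linarith
  · have h5 := (h _ (g.nc.mem q.1)).chord (g.nc.mem q.2)
    rw [norm_sub_rev] at h3 h5
    linarith [norm_sub_norm_le (fderiv ℝ (F x) v (q.1 - q.2)) (F x q.1 - F x q.2)]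

end Crest.Agent.R241.RG
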