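import Crest.Agent.R241.Geo.Exp
import Crest.Agent.R241.Geo.Var
import Crest.Agent.R241.Geo.Hinge

/-! # Row 241, block I: assembly -/

open Set Filter Topology
open Crest.GeometryTopology.Submanifold
open scoped ContDiff InnerProductSpace

noncomputable section

namespace Crest.Agent.R241.RG

variable {d N : ℕ} {σ : ℝ} {S : Set (Euc N)} {P : Euc N → Euc N →L[ℝ] Euc N} {p : Euc N}

theorem exists_atl (hσ : 0 ≤ σ) (h : TP d S P) (hK : Sec σ S P) (hcl : IsClosed S)
    (hconn : IsConnected S) (hsc : SimplyConnectedSpace S) :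
    ∃ (F : Euc N → Euc d → Euc N) (G : Euc N → Euc N → Euc d), Atl σ S P F G := by
  have key : ∀ p : Euc N, ∃ (F : Euc d → Euc N) (G : Euc N → Euc d), p ∈ S → GC σ S P p F G := by
    intro p
    by_cases hp : p ∈ S
    · obtain ⟨F, hF⟩ := h.exists_NC hcl hp
      have hexp : ∀ v u, ‖u‖ ≤ ‖fderiv ℝ F v u‖ := fun v u =>
        abs_le_of_sq_le_sq' ((sq_le_gm hσ v u).trans (hF.rauch hσ h hK v u)) (norm_nonneg _) |>.2
      obtain ⟨G, h1, h2, h3⟩ := exists_inverse h.sub hconn hsc hF.smooth hF.mem hexp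
      exact ⟨F, G, fun _ => ⟨hF, hF.speed h, hF.rauch hσ h hK, hexp, h1, h2, h3⟩⟩
    · exact ⟨fun _ => 0, fun _ => 0, fun h => absurd h hp⟩
  choose F G hFG using key
  exact ⟨F, G, hFG⟩

/-- `S` as a bare type -/
structure XS (S : Set (Euc N)) : Type where
  val : Euc N
  mem : val ∈ S

variable {F : Euc N → Euc d → Euc N} {G : Euc N → Euc N → Euc d}

/-- the intrinsic metric -/
@[reducible] def Atl.metric (h : Atl σ S P F G) : MetricSpace (XS S) where
  dist x y := ‖G x.val y.val‖
  dist_self x := by rw [(h _ x.mem).self, norm_zero]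
  dist_comm x y := h.comm x.mem y.mem
  dist_triangle x y z := h.tri x.mem y.mem z.mem
  eq_of_dist_eq_zero := by
    rintro ⟨x, hx⟩ ⟨y, hy⟩ hxy
    have h1 : ‖y - x‖ ≤ 0 := ((h x hx).chord hy).trans_eq hxy
    obtain rfl : y = x := sub_eq_zero.1 (norm_le_zero_iff.1 h1)
    rfl

theorem geo_of_atl (hσ : 0 ≤ σ) (h : Atl σ S P F G) (hne : S.Nonempty) :
    ∃ (X : Type) (_ : MetricSpace X) (j : X → Euc N), Geo σ d S X j := by
  let _ : MetricSpace (XS S) := h.metric
  have hd : ∀ x y : XS S, dist x y = ‖G x.val y.val‖ := fun _ _ => rfl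
  have hinj : Function.Injective (XS.val : XS S → Euc N) := by
    rintro ⟨x, hx⟩ ⟨y, hy⟩ (rfl : x = y)
    rfl
  have hlip : LipschitzWith 1 (XS.val : XS S → Euc N) := LipschitzWith.of_dist_le_mul fun x y => by
    rw [NNReal.coe_one, one_mul, dist_comm x y, hd, dist_eq_norm]
    exact (h _ y.mem).chord x.mem
  have htend : ∀ {ι : Type} {l : Filter ι} {y : ι → XS S} {x : XS S},
      Tendsto (fun i => (y i).val) l (𝓝 x.val) → Tendsto y l (𝓝 x) := by
    intro ι l y x hy
    rw [tendsto_iff_dist_tendsto_zero]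
    have h1 := (((h _ x.mem).cont _ x.mem).tendsto.comp
      (tendsto_nhdsWithin_iff.2 ⟨hy, Eventually.of_forall fun i => (y i).mem⟩)).norm
    rw [(h _ x.mem).self, norm_zero] at h1
    exact h1.congr fun i => by rw [dist_comm, hd]; rfl
  have hchart : ∀ x₀ : XS S, ∃ e : Euc d ≃ₜ XS S, Chart XS.val x₀ e := by
    intro x₀
    have g := h _ x₀.mem
    refine ⟨{ toFun := fun v => ⟨F x₀.val v, g.nc.mem v⟩
              invFun := fun y => G x₀.val y.val
              left_inv := fun v => g.left v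
              right_inv := fun y => hinj (g.right _ y.mem)
              continuous_toFun := continuous_iff_continuousAt.2 fun v =>
                htend (g.nc.smooth.continuous.tendsto v)
              continuous_invFun := (LipschitzWith.of_dist_le_mul (K := 1) fun y z => ?_).continuous },
      g.nc.smooth, fun v => ?_, g.expand, fun v ε hε => h.loc x₀.mem v hε⟩
    · rw [NNReal.coe_one, one_mul, dist_comm y z, hd, dist_eq_norm]
      exact h.sub_le x₀.mem z.mem y.mem
    · rw [dist_comm, hd]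
      exact congrArg norm (g.left v)
  obtain ⟨p, hp⟩ := hne
  refine ⟨XS S, inferInstance, XS.val, ?_, ⟨⟨p, hp⟩⟩, fun x y => ?_, ⟨?_, hinj⟩, hlip, ?_, hchart⟩
  · refine ⟨fun x r => ?_⟩
    obtain ⟨e, he⟩ := hchart x
    convert (isCompact_closedBall (0 : Euc d) r).image e.continuous using 1
    ext y
    obtain ⟨v, rfl⟩ := e.surjective y
    rw [e.injective.mem_set_image, Metric.mem_closedBall, he.dist_eq, mem_closedBall_zero_iff]
  · have g := h _ x.mem
    by_cases hxy : dist x y = 0
    · obtain rfl := dist_eq_zero.1 hxy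
      refine ⟨fun _ => x, rfl, rfl, fun s hs t ht => ?_, fun z a ha => ?_⟩
      · rw [dist_self] at hs ht
        rw [le_antisymm hs.2 hs.1, le_antisymm ht.2 ht.1]
        simp
      · rw [dist_self] at ha
        rw [le_antisymm ha.2 ha.1]
        simp
    · have hv : ‖(dist x y)⁻¹ • G x.val y.val‖ = 1 := by
        rw [norm_smul, ← hd, norm_inv, Real.norm_eq_abs, abs_dist, inv_mul_cancel₀ hxy]
      have hy : F x.val (dist x y • (dist x y)⁻¹ • G x.val y.val) = y.val := by
        rw [smul_inv_smul₀ hxy, g.right _ y.mem]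
      refine ⟨fun a => ⟨F x.val (a • (dist x y)⁻¹ • G x.val y.val), g.nc.mem _⟩, hinj ?_, hinj hy,
        fun s _ t _ => ?_, fun z a ha => ?_⟩
      · simpa using g.nc.zero
      · rw [hd, h.radial_iso x.mem, hv, mul_one]
      · have := h.cmp hσ x.mem z.mem hv ha
        rw [hy] at this
        exact this
  · refine isInducing_iff_nhds.2 fun x => le_antisymm (hlip.continuous.tendsto x).le_comap ?_
    exact htend (y := id) tendsto_comap
  · ext x
    exact ⟨by rintro ⟨y, rfl⟩; exact y.mem, fun hx => ⟨⟨x, hx⟩, rfl⟩⟩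

end Crest.Agent.R241.RG
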