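import Crest.Agent.R241.Geo.Sub
import Crest.Agent.R244.Cover

/-! # Row 241, block I: an expanding map onto a simply connected submanifold is a homeomorphism -/

open Set Filter Topology
open Crest.GeometryTopology.Submanifold
open scoped ContDiff InnerProductSpace

noncomputable section

namespace Crest.Agent.R241.RG

variable {d N : ℕ} {σ : ℝ} {S : Set (Euc N)} {P : Euc N → Euc N →L[ℝ] Euc N} {p : Euc N}

variable {F : Euc d → Euc N}

theorem cover_inj (hexp : ∀ v u, ‖u‖ ≤ ‖fderiv ℝ F v u‖) (v : Euc d) :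
    Function.Injective (fderiv ℝ F v) :=
  (injective_iff_map_eq_zero _).2 fun u hu => norm_le_zero_iff.1 (by simpa [hu] using hexp v u)

/-- the chart of `S` inverse to a parametrisation -/
theorem exists_chart (hS : IsSubmanifold d N S) (q : S) :
    ∃ (f : Euc d → Euc N) (V : Set (Euc d)) (r : Euc N → Euc d) (U : Set (Euc N))
      (φ : OpenPartialHomeomorph S (Euc d)), IsLocalParam d N S q f V ∧ IsOpen U ∧ q.1 ∈ U ∧
      ContDiffOn ℝ ∞ r U ∧ φ.source = Subtype.val ⁻¹' U ∧ φ.target ⊆ V ∧ (∀ x, φ x = r x) ∧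
      ∀ u ∈ φ.target, (φ.symm u : Euc N) = f u := by
  classical
  obtain ⟨f, V, hf⟩ := hS q q.2
  obtain ⟨r, U, hU, hq, hr, hrV, h1, h2⟩ := param_retr hf
  have h3 : ∀ u ∈ V, ((if hu : u ∈ V then ⟨f u, param_mem hf hu⟩ else q : S) : Euc N) = f u :=
    fun u hu => by rw [dif_pos hu]
  refine ⟨f, V, r, U,
    { toFun := fun x => r x
      invFun := fun u => if hu : u ∈ V then ⟨f u, param_mem hf hu⟩ else q
      source := Subtype.val ⁻¹' U
      target := V ∩ f ⁻¹' U
      map_source' := fun x hx => ⟨hrV hx, by rw [mem_preimage, h1 x x.2 hx]; exact hx⟩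
      map_target' := fun u hu => by rw [mem_preimage, h3 u hu.1]; exact hu.2
      left_inv' := fun x hx => Subtype.ext ((h3 _ (hrV hx)).trans (h1 x x.2 hx))
      right_inv' := fun u hu => by rw [h3 u hu.1, h2 u hu.1 hu.2]
      open_source := hU.preimage continuous_subtype_val
      open_target := hf.contDiffOn.continuousOn.isOpen_inter_preimage hf.isOpen hU
      continuousOn_toFun := hr.continuousOn.comp continuous_subtype_val.continuousOn fun _ hx => hx
      continuousOn_invFun := IsInducing.subtypeVal.continuousOn_iff.2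
        ((hf.contDiffOn.continuousOn.mono inter_subset_left).congr fun u hu => h3 u hu.1) },
    hf, hU, hq, hr, rfl, inter_subset_left, fun _ => rfl, fun u hu => h3 u hu.1⟩

/-- lifting the derivative through an immersion (`HasFDerivWithinAt.of_comp_of_leftInverse` with a
linear left inverse of the injective `fderiv F (γ t)`; then uniqueness of the derivative of
`F ∘ γ = c` within `s`, or directly: `c'` lies in the closed range) -/
theorem lift_deriv (hF : ContDiff ℝ ∞ F) (hexp : ∀ v u, ‖u‖ ≤ ‖fderiv ℝ F v u‖) {γ : ℝ → Euc d}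
    {c : ℝ → Euc N} {c' : Euc N} {s : Set ℝ} {t : ℝ} (ht : t ∈ s) (hs : UniqueDiffWithinAt ℝ s t)
    (hγ : ContinuousWithinAt γ s t) (hc : HasDerivWithinAt c c' s t)
    (hl : ∀ᶠ r in 𝓝[s] t, F (γ r) = c r) :
    ∃ u, HasDerivWithinAt γ u s t ∧ fderiv ℝ F (γ t) u = c' := by
  obtain ⟨M, -, hM⟩ := exists_pinv (U := (univ : Set ℝ)) (L := fun _ => fderiv ℝ F (γ t))
    contDiffOn_const fun _ _ => cover_inj hexp _
  have hF' := (hF.differentiable (by simp) (γ t)).hasFDerivAt
  have h1 : HasDerivWithinAt γ (M 0 c') s t := by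
    have := (HasFDerivWithinAt.of_comp_of_leftInverse (t := univ) (f'symm := M 0)
      (by rw [nhdsWithin_univ]; exact hγ) hF'.hasFDerivWithinAt hc.hasFDerivWithinAt hl
      (hM 0 trivial).1 ht).hasDerivWithinAt
    simpa using this
  exact ⟨_, h1, hs.eq_deriv _ ((hF'.comp_hasDerivWithinAt t h1).congr_of_eventuallyEq
    (hl.mono fun r hr => hr.symm) (hl.self_of_nhdsWithin ht).symm) hc⟩

/-- Recipe: at `v₀` take `f, V` at `F v₀`, `r, U` from `param_retr`; `r ∘ F` is smooth near `v₀`,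
`f ∘ r ∘ F = F` near `v₀`, so its derivative is injective, hence invertible; inverse function
theorem (`ContDiffAt.toOpenPartialHomeomorph`), and `r` restricted to `S ∩ U` is an
`OpenPartialHomeomorph S (Euc d)` with inverse `f` (target `V ∩ f ⁻¹' U`).  Compare
`R244.MA.ExpOK.isLocalHomeomorph`.  (`isLocalHomeomorph_iff_isOpenEmbedding_restrict` or
`IsLocalHomeomorph.mk` are possible entry points.) -/
theorem isLocalHomeomorph_codRestrict (hS : IsSubmanifold d N S) (hF : ContDiff ℝ ∞ F)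
    (hmem : ∀ v, F v ∈ S) (hexp : ∀ v u, ‖u‖ ≤ ‖fderiv ℝ F v u‖) :
    IsLocalHomeomorph (codRestrict F S hmem) := by
  refine IsLocalHomeomorph.mk _ fun v => ?_
  have he : Continuous (codRestrict F S hmem) := hF.continuous.codRestrict hmem
  obtain ⟨f, V, r, U, φ, hf, hU, hq, hr, h1, h2, h3, h4⟩ := exists_chart hS (codRestrict F S hmem v)
  have hs : codRestrict F S hmem v ∈ φ.source := h1 ▸ hq
  have hc : ContDiffAt ℝ ∞ (r ∘ F) v := (hr.contDiffAt (hU.mem_nhds hq)).comp v hF.contDiffAt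
  have hd := (hc.differentiableAt (by simp)).hasFDerivAt
  have h5 : ∀ w, codRestrict F S hmem w ∈ φ.source → f (r (F w)) = F w := fun w hw => by
    have := h4 _ (φ.map_source hw)
    rw [φ.left_inv hw, h3] at this
    exact this.symm
  have h7 : r (F v) ∈ φ.target := by
    have := φ.map_source hs
    rwa [h3] at this
  have h6 := (((param_contDiffAt hf (h2 h7)).differentiableAt
    (by simp)).hasFDerivAt.comp v hd).congr_of_eventuallyEq (f₁ := F) (by
      filter_upwards [he.continuousAt.eventually (φ.open_source.mem_nhds hs)] with w hw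
      exact (h5 w hw).symm)
  obtain ⟨A, hA⟩ := sub_invertible (A := fderiv ℝ (r ∘ F) v) (by
    have := cover_inj hexp v
    rw [h6.fderiv, ContinuousLinearMap.coe_comp] at this
    exact this.of_comp)
  refine ⟨((hc.toOpenPartialHomeomorph (r ∘ F) (hA ▸ hd) (by simp)).restrOpen
    (codRestrict F S hmem ⁻¹' φ.source) (φ.open_source.preimage he)).trans φ.symm,
    ⟨⟨ContDiffAt.mem_toOpenPartialHomeomorph_source _ _ _, hs⟩, ?_⟩, fun w hw => ?_⟩
  · exact h7
  · exact (φ.left_inv hw.1.2).symm.trans (congrArg φ.symm (h3 _))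

/-- copy of `R244.cover_lift` (there `E = Euc 3`), same proof with `R244.cover_extend` -/
theorem cover_lift {M : Type} [TopologicalSpace M] [T2Space M] {e : Euc d → M}
    (he : IsLocalHomeomorph e) {c : ℝ → M} (hc : ContinuousOn c (Icc 0 1)) {a : Euc d}
    (ha : e a = c 0) {R : ℝ} (hR : ∀ t ∈ Icc (0 : ℝ) 1, ∀ γ : ℝ → Euc d, ContinuousOn γ (Icc 0 t) →
      γ 0 = a → (∀ s ∈ Icc 0 t, e (γ s) = c s) → ‖γ t‖ ≤ R) :
    ∃ γ : ℝ → Euc d, ContinuousOn γ (Icc 0 1) ∧ γ 0 = a ∧ ∀ s ∈ Icc (0 : ℝ) 1, e (γ s) = c s := by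
  set T0 : Set ℝ := {t | ∃ f : ℝ → Euc d, ContinuousOn f (Icc 0 t) ∧ f 0 = a ∧
    ∀ s ∈ Icc 0 t, e (f s) = c s} with hT0
  have hnear : ∀ T ∈ Icc (0 : ℝ) 1, ∀ V : Set M, IsOpen V → c T ∈ V →
      ∃ η > 0, ∀ s ∈ Icc (0 : ℝ) 1, |s - T| < η → c s ∈ V := by
    intro T hT V hV hTV
    have := (hc T hT).eventually (hV.mem_nhds hTV)
    rw [eventually_nhdsWithin_iff, Metric.eventually_nhds_iff] at this
    obtain ⟨η, hη, h⟩ := this
    exact ⟨η, hη, fun s hs hd => h hd hs⟩
  refine IsClosed.Icc_subset_of_forall_exists_gt (s := T0) ?_ ?_ ?_ ⟨zero_le_one, le_rfl⟩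
  · refine isClosed_of_closure_subset fun T hT => ?_
    have hT1 : T ∈ Icc (0 : ℝ) 1 := closure_minimal inter_subset_right isClosed_Icc hT
    refine ⟨?_, hT1⟩
    obtain ⟨t, ht, hlim⟩ := mem_closure_iff_seq_limit.1 hT
    choose f hf hf0 hfl using fun n => (ht n).1
    obtain ⟨b, -, φ, hφ, hb⟩ := tendsto_subseq_of_bounded (Metric.isBounded_closedBall (x := (0 : Euc d))
      (r := R)) (x := fun n => f n (t n))
      fun n => by simpa using hR _ (ht n).2 _ (hf n) (hf0 n) (hfl n)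
    have hlim' : Tendsto (fun n => t (φ n)) atTop (𝓝 T) := hlim.comp hφ.tendsto_atTop
    have hbT : e b = c T := by
      refine tendsto_nhds_unique ((he.continuous.tendsto b).comp hb) ?_
      refine ((hc T hT1).tendsto.comp (tendsto_nhdsWithin_iff.2
        ⟨hlim', Eventually.of_forall fun n => (ht _).2⟩)).congr fun n => ?_
      exact (hfl _ _ ⟨(ht _).2.1, le_rfl⟩).symm
    obtain ⟨ψ, hψb, hψ⟩ := he b
    obtain ⟨η, hη, hV⟩ := hnear T hT1 ψ.target ψ.open_target
      (by rw [← hbT, hψ]; exact ψ.map_source hψb)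
    obtain ⟨n, h1, h2⟩ := ((hb.eventually (ψ.open_source.mem_nhds hψb)).and
      (Metric.tendsto_nhds.1 hlim' η hη)).exists
    rw [Real.dist_eq, abs_lt] at h2
    rcases le_total (t (φ n)) T with h3 | h3
    · have hsub : Icc (t (φ n)) T ⊆ Icc 0 1 := Icc_subset_Icc (ht _).2.1 hT1.2
      obtain ⟨g, g1, g2, g3⟩ := R244.cover_extend (ht _).2.1 h3 (hc.mono hsub) (hf _) (hfl _) ψ hψ h1
        fun s hs => hV s (hsub hs) (by rw [abs_lt]; constructor <;> linarith [hs.1, hs.2])
      exact ⟨g, g1, g2.trans (hf0 _), g3⟩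
    · exact ⟨f (φ n), (hf _).mono (Icc_subset_Icc_right h3), hf0 _,
        fun s hs => hfl _ s (Icc_subset_Icc_right h3 hs)⟩
  · refine ⟨fun _ => a, continuousOn_const, rfl, fun s hs => ?_⟩
    rw [le_antisymm hs.2 hs.1, ha]
  · rintro t ⟨⟨f, hf, hf0, hfl⟩, ht⟩ y hy
    obtain ⟨ψ, hψb, hψ⟩ := he (f t)
    obtain ⟨η, hη, hV⟩ := hnear t ⟨ht.1, ht.2.le⟩ ψ.target ψ.open_target
      (by rw [← hfl t ⟨ht.1, le_rfl⟩, hψ]; exact ψ.map_source hψb)
    have h1 : t < min y (min 1 (t + η / 2)) := lt_min hy (lt_min ht.2 (by linarith))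
    have h2 : min y (min 1 (t + η / 2)) ≤ 1 := (min_le_right _ _).trans (min_le_left _ _)
    have h3 : min y (min 1 (t + η / 2)) ≤ t + η / 2 := (min_le_right _ _).trans (min_le_right _ _)
    have hsub : Icc t (min y (min 1 (t + η / 2))) ⊆ Icc 0 1 := Icc_subset_Icc ht.1 h2
    obtain ⟨g, g1, g2, g3⟩ := R244.cover_extend ht.1 h1.le (hc.mono hsub) hf hfl ψ hψ hψb
      fun s hs => hV s (hsub hs) (by rw [abs_lt]; constructor <;> linarith [hs.1, hs.2])
    exact ⟨_, ⟨g, g1, g2.trans hf0, g3⟩, h1, min_le_left _ _⟩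

theorem cover_segment (hS : IsSubmanifold d N S) (hF : ContDiff ℝ ∞ F) (hmem : ∀ v, F v ∈ S)
    (hexp : ∀ v u, ‖u‖ ≤ ‖fderiv ℝ F v u‖) {f : Euc d → Euc N} {V : Set (Euc d)}
    (hf : IsLocalParam d N S p f V) {φ : OpenPartialHomeomorph S (Euc d)} (h2 : φ.target ⊆ V)
    (h4 : ∀ u ∈ φ.target, (φ.symm u : Euc N) = f u) {y0 y1 : Euc d}
    (hs : segment ℝ y0 y1 ⊆ φ.target) {a : Euc d} (ha : codRestrict F S hmem a = φ.symm y0) :
    ∃ γ : unitInterval → Euc d, Continuous γ ∧ γ 0 = a ∧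
      ∀ t : unitInterval, codRestrict F S hmem (γ t) = φ.symm (y0 + (t : ℝ) • (y1 - y0)) := by
  have hy : ∀ t ∈ Icc (0 : ℝ) 1, y0 + t • (y1 - y0) ∈ φ.target := fun t ht =>
    hs (by rw [segment_eq_image']; exact ⟨t, ht, rfl⟩)
  have hyc : Continuous fun t : ℝ => y0 + t • (y1 - y0) := by fun_prop
  have hc : ContinuousOn (fun t : ℝ => φ.symm (y0 + t • (y1 - y0))) (Icc 0 1) :=
    φ.continuousOn_symm.comp hyc.continuousOn hy
  obtain ⟨C, hC⟩ : ∃ C, ∀ t ∈ Icc (0 : ℝ) 1, ‖fderiv ℝ f (y0 + t • (y1 - y0)) (y1 - y0)‖ ≤ C :=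
    isCompact_Icc.exists_bound_of_continuousOn (((hf.contDiffOn.continuousOn_fderiv_of_isOpen
      hf.isOpen (by simp)).comp hyc.continuousOn fun t ht => h2 (hy t ht)).clm_apply
        continuousOn_const)
  have hC0 : 0 ≤ C := (norm_nonneg _).trans (hC 0 ⟨le_rfl, zero_le_one⟩)
  obtain ⟨γ, h5, h6, h7⟩ := cover_lift (isLocalHomeomorph_codRestrict hS hF hmem hexp) hc (a := a)
    (by simpa using ha) (R := ‖a‖ + C) fun t ht γ hγ h0 hl => by
      have hd : ∀ s ∈ Ico 0 t, ∃ u, HasDerivWithinAt γ u (Ici s) s ∧ ‖u‖ ≤ C := by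
        intro s hs'
        have hs1 : s ∈ Icc (0 : ℝ) 1 := ⟨hs'.1, hs'.2.le.trans ht.2⟩
        have hmem' : Icc 0 t ∈ 𝓝[≥] s := Icc_mem_nhdsGE_of_mem hs'
        have h3 : HasDerivAt (fun r : ℝ => y0 + r • (y1 - y0)) (y1 - y0) s := by
          simpa using ((hasDerivAt_id s).smul_const (y1 - y0)).const_add y0
        obtain ⟨u, hu, hu'⟩ := lift_deriv hF hexp self_mem_Ici (uniqueDiffWithinAt_Ici s)
          ((hγ s ⟨hs'.1, hs'.2.le⟩).mono_of_mem_nhdsWithin hmem')
          (((param_contDiffAt hf (h2 (hy s hs1))).differentiableAt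
            (by simp)).hasFDerivAt.comp_hasDerivAt s h3).hasDerivWithinAt (by
            filter_upwards [hmem'] with r hr
            exact (congrArg Subtype.val (hl r hr)).trans (h4 _ (hy r ⟨hr.1, hr.2.trans ht.2⟩)))
        exact ⟨u, hu, (hexp _ u).trans (hu' ▸ hC s hs1)⟩
      choose! u hu hb using hd
      have h8 := norm_image_sub_le_of_norm_deriv_right_le_segment hγ hu hb t ⟨ht.1, le_rfl⟩
      rw [h0] at h8
      nlinarith [norm_sub_norm_le (γ t) a, ht.2]
  exact ⟨fun t => γ t, h5.comp_continuous continuous_subtype_val fun t => t.2, h6,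
    fun t => h7 t t.2⟩

/-- Recipe (copy `R244.MA.ExpOK.lift_segment`, `isCoveringMap`): at `q ∈ S` take `f, V`, a ball
`B ⊆ V` about `0`, `U = {x : S | x ∈ f '' B}` (open by `image_open`), `r` the continuous inverse of
`f` on `U` (`param_retr`, shrink `B` so that `f '' B ⊆ U₀`), `h (t, u) = f ((1 - t) • r u)`;
`R244.evenlyCovered_of_lifts`; segments `t ↦ f (y₀ + t • (y₁ - y₀))` lift by `cover_lift`: by
`lift_deriv` on `Ici s` a partial lift has right derivative of norm `≤ C`
(`norm_image_sub_le_of_norm_deriv_right_le_segment`).  The range of a covering map is clopen. -/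
theorem isCoveringMap_codRestrict (hS : IsSubmanifold d N S) (_hconn : IsConnected S)
    (hF : ContDiff ℝ ∞ F) (hmem : ∀ v, F v ∈ S) (hexp : ∀ v u, ‖u‖ ≤ ‖fderiv ℝ F v u‖) :
    IsCoveringMap (codRestrict F S hmem) := by
  intro q
  obtain ⟨f, V, r, U, φ, hf, -, hq, -, h1, h2, -, h4⟩ := exists_chart hS q
  have hqs : q ∈ φ.source := h1 ▸ hq
  obtain ⟨ρ, hρ, hb⟩ := Metric.isOpen_iff.1 φ.open_target _ (φ.map_source hqs)
  have hU : IsOpen (φ.source ∩ φ ⁻¹' Metric.ball (φ q) ρ) :=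
    φ.isOpen_inter_preimage Metric.isOpen_ball
  have hseg : ∀ u : ↥(φ.source ∩ φ ⁻¹' Metric.ball (φ q) ρ), segment ℝ (φ u) (φ q) ⊆ φ.target :=
    fun u => ((convex_ball _ _).segment_subset u.2.2 (Metric.mem_ball_self hρ)).trans hb
  refine R244.evenlyCovered_of_lifts (isLocalHomeomorph_codRestrict hS hF hmem hexp) hU
    ⟨hqs, Metric.mem_ball_self hρ⟩ (fun z => φ.symm (φ z.2 + (z.1 : ℝ) • (φ q - φ z.2))) ?_
    (fun u => ?_) (fun u => ?_) (fun u a ha => ?_) fun u a ha => ?_
  · have hc : Continuous fun u : ↥(φ.source ∩ φ ⁻¹' Metric.ball (φ q) ρ) => φ u :=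
      φ.continuousOn.comp_continuous continuous_subtype_val fun u => u.2.1
    refine φ.continuousOn_symm.comp_continuous ((hc.comp continuous_snd).add
      ((continuous_subtype_val.comp continuous_fst).smul
        (continuous_const.sub (hc.comp continuous_snd)))) fun z => hseg z.2 ?_
    rw [segment_eq_image']
    exact ⟨z.1, z.1.2, rfl⟩
  · simpa using φ.left_inv u.2.1
  · simpa using φ.left_inv hqs
  · exact cover_segment hS hF hmem hexp hf h2 h4 (hseg u) (ha.trans (φ.left_inv u.2.1).symm)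
  · obtain ⟨γ, h5, h6, h7⟩ := cover_segment hS hF hmem hexp hf h2 h4 (y1 := φ u)
      ((segment_symm ℝ _ _).subset.trans (hseg u)) (ha.trans (φ.left_inv hqs).symm)
    refine ⟨fun t => γ (unitInterval.symm t), h5.comp unitInterval.continuous_symm,
      by simpa using h6, fun t => ?_⟩
    rw [h7, unitInterval.coe_symm_eq]
    congr 1
    module

/-- `S` is locally path connected (`param_retr`: the sets `f '' ball 0 ρ` are a basis at `p`) -/
theorem locPath (hS : IsSubmanifold d N S) : LocallyPathConnectedSpace S := by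
  choose f V r U φ hf hU hq hr h1 h2 using exists_chart hS
  let _ : ChartedSpace (Euc d) S :=
    { atlas := range φ
      chartAt := φ
      mem_chart_source := fun q => h1 q ▸ hq q
      chart_mem_atlas := fun q => ⟨q, rfl⟩ }
  exact ChartedSpace.locallyPathConnectedSpace (Euc d) S

/-- `IsCoveringMap.existsUnique_continuousMap_lifts` for the identity of `S` gives a section `s`
with `s (F 0) = 0`; `s ∘ F = id` by uniqueness of lifts (`IsCoveringMap.eq_of_comp_eq`);
`G x = if h : x ∈ S then s ⟨x, h⟩ else 0` (`Function.extend Subtype.val s 0`). -/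
theorem exists_inverse (hS : IsSubmanifold d N S) (hconn : IsConnected S)
    (hsc : SimplyConnectedSpace S) (hF : ContDiff ℝ ∞ F) (hmem : ∀ v, F v ∈ S)
    (hexp : ∀ v u, ‖u‖ ≤ ‖fderiv ℝ F v u‖) :
    ∃ G : Euc N → Euc d, (∀ v, G (F v) = v) ∧ (∀ x ∈ S, F (G x) = x) ∧ ContinuousOn G S := by
  have := locPath hS
  have hcov := isCoveringMap_codRestrict hS hconn hF hmem hexp
  obtain ⟨s, ⟨h0, h1⟩, -⟩ := hcov.existsUnique_continuousMap_lifts (ContinuousMap.id S)
    (codRestrict F S hmem 0) 0 rfl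
  have h2 : s ∘ codRestrict F S hmem = id :=
    hcov.eq_of_comp_eq (s.continuous.comp hcov.continuous) continuous_id
      (by rw [← Function.comp_assoc, h1]; rfl) 0 h0
  have h3 : ∀ x : S, Function.extend Subtype.val s 0 (x : Euc N) = s x := fun x =>
    Subtype.val_injective.extend_apply _ _ x
  refine ⟨Function.extend Subtype.val s 0, fun v => (h3 ⟨F v, hmem v⟩).trans (congrFun h2 v),
    fun x hx => ?_, continuousOn_iff_continuous_domRestrict.2
      (s.continuous.congr fun x => (h3 x).symm)⟩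
  rw [h3 ⟨x, hx⟩]
  exact congrArg Subtype.val (congrFun h1 ⟨x, hx⟩)

end Crest.Agent.R241.RG
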