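import Crest.Agent.R241.Geo.Proj
import Crest.Agent.R241.Geo.Flow

/-! # Row 241, block I: geodesics and normal coordinates -/

open Set Filter Topology
open Crest.GeometryTopology.Submanifold
open scoped ContDiff InnerProductSpace

noncomputable section

namespace Crest.Agent.R241.RG

variable {d N : ℕ} {σ : ℝ} {S : Set (Euc N)} {P : Euc N → Euc N →L[ℝ] Euc N} {p : Euc N}

/-- the metric connection form `Om x v = [DP_x v, P x]` -/
def om1 (P : Euc N → Euc N →L[ℝ] Euc N) (x v z : Euc N) : Euc N :=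
  II P x v (P x z) - P x (II P x v z)

/-- `om1` as a smooth family of bilinear maps, skew (differentiate `symm`: `DP_x v` is symmetric) -/
theorem TP.exists_om (h : TP d S P) :
    ∃ Om : Euc N → Euc N →L[ℝ] Euc N →L[ℝ] Euc N, ContDiff ℝ ∞ Om ∧
      (∀ x v z, ⟪Om x v z, z⟫_ℝ = 0) ∧ ∀ x v z, Om x v z = om1 P x v z := by
  have hd : ContDiff ℝ ∞ (fderiv ℝ P) := h.smooth.fderiv_right (m := ∞) le_rfl
  have hs : ∀ x v a b, ⟪II P x v a, b⟫_ℝ = ⟪a, II P x v b⟫_ℝ := by
    intro x v a b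
    have h0 := (h.smooth.differentiable (by simp) x).hasFDerivAt
    have h1 := (h0.clm_apply (hasFDerivAt_const a x)).inner ℝ (hasFDerivAt_const b x)
    have h2 := (hasFDerivAt_const a x).inner ℝ (h0.clm_apply (hasFDerivAt_const b x))
    have h3 := congrArg (fun A => A v) (h1.unique (h2.congr_of_eventuallyEq
      (Eventually.of_forall fun y => h.symm y a b)))
    simpa [II] using h3
  refine ⟨fun x => ((ContinuousLinearMap.compL ℝ (Euc N) (Euc N) (Euc N)).flip (P x)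
    - ContinuousLinearMap.compL ℝ (Euc N) (Euc N) (Euc N) (P x)) ∘L fderiv ℝ P x,
    ((contDiff_const.clm_apply h.smooth).sub (contDiff_const.clm_apply h.smooth)).clm_comp hd,
    fun x v z => ?_, fun x v z => rfl⟩
  change ⟪om1 P x v z, z⟫_ℝ = 0
  rw [om1, inner_sub_left, hs, h.symm, h.symm x (II P x v z), ← h.symm x z, real_inner_comm,
    sub_self]

theorem TP.om1_eq (h : TP d S P) {x v : Euc N} (hx : x ∈ S) (hv : P x v = v) :
    om1 P x v v = II P x v v := by
  rw [om1, hv, h.nrm hx hv hv, sub_zero]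

/-- Short geodesics exist in `S`.  Recipe: `f, V` at `p`, `v = Df₀ w` (`rng`), `M` from `exists_pinv`
for `L = fderiv f`; solve `(u, y)' = (y, -M u (D²f u y y))` near `(0, w)`
(`ContDiffAt.exists_forall_mem_closedBall_exists_eq_forall_mem_Ioo_hasDerivAt₀`, or
`exists_forall_hasDerivAt_Ioo_eq_of_contDiffAt`), shrink `ε` so that `u t ∈ V`; `c = f ∘ u`,
`c₁ = Df u y`, `c₁' = D²f y y - L M D²f y y`, `L M = P` (both are the orthogonal projection: use
`rng`, `fix`, `symm`), `TP.hess`. -/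
theorem TP.local_geod (h : TP d S P) (hp : p ∈ S) {v : Euc N} (hv : P p v = v) :
    ∃ ε > (0 : ℝ), ∃ c c₁ : ℝ → Euc N, c 0 = p ∧ c₁ 0 = v ∧ ∀ t ∈ Ioo (-ε) ε,
      c t ∈ S ∧ P (c t) (c₁ t) = c₁ t ∧ HasDerivAt c (c₁ t) t ∧
        HasDerivAt c₁ (II P (c t) (c₁ t) (c₁ t)) t := by
  obtain ⟨f, V, hf, h1, -, -⟩ := h.exists_param hp
  obtain ⟨w, rfl⟩ := h1 v hv
  have hL : ContDiffOn ℝ ∞ (fderiv ℝ f) V := hf.contDiffOn.fderiv_of_isOpen hf.isOpen le_rfl
  have hL2 : ContDiffOn ℝ ∞ (fderiv ℝ (fderiv ℝ f)) V := hL.fderiv_of_isOpen hf.isOpen le_rfl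
  obtain ⟨M, hM, hM'⟩ := exists_pinv hL hf.injective_fderiv
  have hV := hf.isOpen.mem_nhds hf.zero_mem
  have hLM : ∀ u ∈ V, ∀ z, fderiv ℝ f u (M u z) = P (f u) z := fun u hu z => by
    obtain ⟨a, ha⟩ := h.rng p f V hf u hu z
    have h2 : ⟪fderiv ℝ f u (M u z - a), fderiv ℝ f u (M u z - a)⟫_ℝ = 0 := by
      conv_lhs => rw [map_sub (fderiv ℝ f u) (M u z) a, inner_sub_left, ← map_sub]
      rw [(hM' u hu).2, ← ha, h.symm, h.fix p f V hf u hu, sub_self]
    rw [inner_self_eq_zero, map_sub, sub_eq_zero] at h2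
    rw [h2, ha]
  have hW : ContDiffAt ℝ ∞ (fun q : Euc d × Euc d =>
      (q.2, -M q.1 (fderiv ℝ (fderiv ℝ f) q.1 q.2 q.2))) (0, w) :=
    contDiffAt_snd.prodMk ((ContDiffAt.comp (0, w) (hM.contDiffAt hV) contDiffAt_fst).clm_apply
      (((ContDiffAt.comp (0, w) (hL2.contDiffAt hV) contDiffAt_fst).clm_apply
        contDiffAt_snd).clm_apply contDiffAt_snd)).neg
  obtain ⟨α, h0, ε, hε, hα⟩ :=
    (hW.of_le (by simp)).exists_forall_mem_closedBall_exists_eq_forall_mem_Ioo_hasDerivAt₀ 0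
  have hc : ContinuousAt (fun t => (α t).1) 0 :=
    (flow_fst (hα 0 ⟨by linarith, by linarith⟩)).continuousAt
  obtain ⟨δ, hδ, hδV⟩ := Metric.eventually_nhds_iff.1 (hc.eventually (by rw [h0]; exact hV :
    ∀ᶠ u in 𝓝 (α 0).1, u ∈ V))
  refine ⟨min ε δ, lt_min hε hδ, fun t => f (α t).1, fun t => fderiv ℝ f (α t).1 (α t).2,
    by simp [h0, hf.map_zero], by simp [h0], fun t ht => ?_⟩
  have ht' := abs_lt.2 ht
  have hu : (α t).1 ∈ V := hδV (by simpa using ht'.trans_le (min_le_right _ _))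
  have h2 := hα t (by simpa [← abs_lt] using ht'.trans_le (min_le_left _ _))
  refine ⟨param_mem hf hu, h.fix p f V hf _ hu _, ((param_contDiffAt hf hu).differentiableAt
    (by simp)).hasFDerivAt.comp_hasDerivAt t (flow_fst h2), ?_⟩
  refine ((((hL.contDiffAt (hf.isOpen.mem_nhds hu)).differentiableAt
    (by simp)).hasFDerivAt.comp_hasDerivAt t (flow_fst h2)).clm_apply (flow_snd h2)).congr_deriv ?_
  rw [h.hess hf hu, ← hLM _ hu, sub_eq_add_neg, ← map_neg (fderiv ℝ f (α t).1)]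

/-- The tangent bundle of `S` is invariant.  Recipe: `{t | c t ∈ S ∧ P (c t) (c₁ t) = c₁ t}` is closed,
and open by `local_geod` (shifted in time), `om1_eq`, `ode_unique` for the field
`(x, v) ↦ (v, Om x v v)` (`exists_om`); `IsClopen.eq_univ`. -/
theorem TP.invariant (h : TP d S P) (hcl : IsClosed S) {c c₁ : ℝ → Euc N}
    (hc : ∀ t, HasDerivAt c (c₁ t) t) (hc₁ : ∀ t, HasDerivAt c₁ (om1 P (c t) (c₁ t) (c₁ t)) t)
    (h0 : c 0 ∈ S) (h1 : P (c 0) (c₁ 0) = c₁ 0) (t : ℝ) : c t ∈ S ∧ P (c t) (c₁ t) = c₁ t := by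
  obtain ⟨Om, hOm, -, hOm'⟩ := h.exists_om
  have hW : ContDiff ℝ ∞ fun q : Euc N × Euc N => (q.2, Om q.1 q.2 q.2) :=
    contDiff_snd.prodMk (((hOm.comp contDiff_fst).clm_apply contDiff_snd).clm_apply contDiff_snd)
  have cc : Continuous c := continuous_iff_continuousAt.2 fun t => (hc t).continuousAt
  have cc₁ : Continuous c₁ := continuous_iff_continuousAt.2 fun t => (hc₁ t).continuousAt
  have : IsClopen {t | c t ∈ S ∧ P (c t) (c₁ t) = c₁ t} := by
    refine ⟨(hcl.preimage cc).inter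
      (isClosed_eq ((h.smooth.continuous.comp cc).clm_apply cc₁) cc₁), isOpen_iff_mem_nhds.2 ?_⟩
    rintro t ⟨h2, h3⟩
    obtain ⟨ε, hε, b, b₁, hb0, hb1, hb⟩ := h.local_geod h2 h3
    have h4 := ode_unique hW (α := fun s => (c (t + s), c₁ (t + s))) (β := fun s => (b s, b₁ s))
      (t₀ := 0) ⟨neg_lt_zero.2 hε, hε⟩ (fun s _ => by
        simp only [hOm']
        exact ((hc (t + s)).comp_const_add t s).prodMk ((hc₁ (t + s)).comp_const_add t s))
      (fun s hs => by
        simp only [hOm', h.om1_eq (hb s hs).1 (hb s hs).2.1]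
        exact (hb s hs).2.2.1.prodMk (hb s hs).2.2.2) (by simp [hb0, hb1])
    filter_upwards [Ioo_mem_nhds (sub_lt_self t hε) (lt_add_of_pos_right t hε)] with s hs
    have hs' : s - t ∈ Ioo (-ε) ε := ⟨by linarith [hs.1], by linarith [hs.2]⟩
    have h5 := h4 hs'
    simp only [add_sub_cancel, Prod.mk.injEq] at h5
    rw [h5.1, h5.2]
    exact ⟨(hb _ hs').1, (hb _ hs').2.1⟩
  exact (this.eq_univ ⟨0, h0, h1⟩).superset (mem_univ t)

/-- an isometric parametrisation of the tangent space (`T = range (fderiv f 0)` has `finrank = d`,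
`stdOrthonormalBasis`, `OrthonormalBasis.reindex`, `.repr.symm`) -/
theorem TP.exists_iota (h : TP d S P) (hp : p ∈ S) :
    ∃ ι : Euc d →L[ℝ] Euc N, (∀ v, ‖ι v‖ = ‖v‖) ∧ (∀ v, P p (ι v) = ι v) ∧
      ∀ z, P p z = z → ∃ v, ι v = z := by
  obtain ⟨f, V, hf, h1, h2, -⟩ := h.exists_param hp
  let T : Submodule ℝ (Euc N) := LinearMap.range (fderiv ℝ f 0 : Euc d →ₗ[ℝ] Euc N)
  have hT : Module.finrank ℝ T = d := by
    rw [LinearMap.finrank_range_of_inj (hf.injective_fderiv 0 hf.zero_mem), finrank_euclideanSpace_fin]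
  let e : Euc d ≃ₗᵢ[ℝ] T := ((stdOrthonormalBasis ℝ T).reindex (finCongr hT)).repr.symm
  refine ⟨(T.subtypeₗᵢ.comp e.toLinearIsometry).toContinuousLinearMap, fun v => e.norm_map v,
    fun v => ?_,
    fun z hz => ?_⟩
  · obtain ⟨a, ha⟩ := (e v).2
    change P p (e v) = e v
    rw [← ha]
    exact h2 a
  · obtain ⟨a, ha⟩ := h1 z hz
    exact ⟨e.symm ⟨z, a, ha.symm⟩, by simp⟩

/-- geodesics solve the spray equation (`tang`, `field` with `W = deriv c`, `om1_eq`) -/
theorem IsGeod.spray (h : TP d S P) {c : ℝ → Euc N} (hc : IsGeod S P c) (t : ℝ) :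
    P (c t) (deriv c t) = deriv c t ∧
      HasDerivAt (deriv c) (om1 P (c t) (deriv c t) (deriv c t)) t := by
  have h0 : ∀ t, HasDerivAt c (deriv c t) t := fun t =>
    (hc.smooth.differentiable (by simp) t).hasDerivAt
  have h1 : HasDerivAt (deriv c) (deriv (deriv c) t) t :=
    ((hc.smooth.iterate_deriv 1).differentiable (by simp) t).hasDerivAt
  have h2 : ∀ t, P (c t) (deriv c t) = deriv c t := fun t => by
    simpa using h.tang (h0 t).hasFDerivAt (Eventually.of_forall hc.mem) 1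
  have h3 := h.field (h0 t).hasFDerivAt h1.hasFDerivAt (Eventually.of_forall h2) 1
  simp only [ContinuousLinearMap.toSpanSingleton_apply, one_smul, hc.eq, add_zero] at h3
  rw [h.om1_eq (hc.mem t) (h2 t), ← h3]
  exact ⟨h2 t, h1⟩

/-- Recipe: `Om` from `exists_om`, `ex` from `exists_spray_exp`, `ι` from `exists_iota`,
`F v = ex (p, ι v)`.  `geod`: `invariant`, `om1_eq`, `nrm`.  `iso`: `fderiv F 0 v` is the derivative of
`t ↦ F (t • v)` at `0`, that is `ι v`.  `uniq`: `IsGeod.spray` and `ode_unique_univ`. -/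
theorem TP.exists_NC (h : TP d S P) (hcl : IsClosed S) (hp : p ∈ S) :
    ∃ F : Euc d → Euc N, NC S P p F := by
  obtain ⟨Om, hOm, hskew, hOm'⟩ := h.exists_om
  have hW : ContDiff ℝ ∞ fun q : Euc N × Euc N => (q.2, Om q.1 q.2 q.2) :=
    contDiff_snd.prodMk (((hOm.comp contDiff_fst).clm_apply contDiff_snd).clm_apply contDiff_snd)
  obtain ⟨ex, hex, hex'⟩ := exists_spray_exp hOm hskew
  obtain ⟨ι, hι1, hι2, hι3⟩ := h.exists_iota hp
  have hF : ContDiff ℝ ∞ fun v => ex (p, ι v) := hex.comp (contDiff_const.prodMk ι.contDiff)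
  refine ⟨fun v => ex (p, ι v), hF, by simpa using (hex' p 0).1, fun v => ?_, fun v => ?_,
    fun c hc hc0 => ?_⟩
  · obtain ⟨h0, c₁, h1, h2⟩ := hex' p (ι v)
    have h3 := h.invariant hcl (fun t => (h2 t).1) (fun t => hOm' _ _ _ ▸ (h2 t).2)
      (by simpa [h0] using hp) (by simpa [h0, h1] using hι2 v)
    refine ⟨hF.comp (by fun_prop : ContDiff ℝ ∞ fun t : ℝ => t • v), fun t => ?_, fun t => ?_⟩ <;>
      simp only [map_smul]
    · exact (h3 t).1
    · rw [show deriv (fun s : ℝ => ex (p, s • ι v)) = c₁ from funext fun t => (h2 t).1.deriv,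
        (h2 t).2.deriv, hOm', h.om1_eq (h3 t).1 (h3 t).2, h.nrm (h3 t).1 (h3 t).2 (h3 t).2]
  · obtain ⟨-, c₁, h1, h2⟩ := hex' p (ι v)
    have h0 : HasDerivAt (fun t : ℝ => t • v) v 0 := by
      simpa using (hasDerivAt_id (0 : ℝ)).smul_const v
    have h3 := (hF.differentiable (by simp) ((0 : ℝ) • v)).hasFDerivAt.comp_hasDerivAt 0 h0
    rw [zero_smul] at h3
    rw [h3.unique ((h2 0).1.congr_of_eventuallyEq (Eventually.of_forall fun t => by simp)), h1, hι1]
  · obtain ⟨v, hv⟩ := hι3 (deriv c 0) (hc0 ▸ (hc.spray h 0).1)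
    obtain ⟨h0, c₁, h1, h2⟩ := hex' p (ι v)
    have := ode_unique_univ hW (α := fun t => (c t, deriv c t))
      (β := fun t => (ex (p, t • ι v), c₁ t)) (fun t => by
        simp only [hOm']
        exact (hc.smooth.differentiable (by simp) t).hasDerivAt.prodMk (hc.spray h t).2)
      (fun t => (h2 t).1.prodMk (h2 t).2) (by simp [h0, h1, hc0, hv])
    exact ⟨v, fun t => by simpa using congrArg Prod.fst (congrFun this t)⟩

end Crest.Agent.R241.RG
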